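import Mathlib

/-!
# Marginals of a submodular function and the two family problems (P038)
-/

namespace Vale.Agent.P038.H49

open Finset

variable {V : Type*} [Fintype V] [DecidableEq V]

open Classical in
/-- Closed out-neighbourhood of a set (`R` is the reflexive closure of the arc relation). -/
noncomputable def nb (R : V → V → Prop) (S : Finset V) : Finset V :=
  univ.filter fun b => ∃ a ∈ S, R a b

open Classical in
/-- The vertices all of whose closed in-neighbours lie in `Z`. -/
noncomputable def inn (R : V → V → Prop) (Z : Finset V) : Finset V :=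
  univ.filter fun a => ∀ y, R y a → y ∈ Z

theorem mem_nb {R : V → V → Prop} {S : Finset V} {b : V} : b ∈ nb R S ↔ ∃ a ∈ S, R a b := by
  classical
  simp [nb]

theorem mem_inn {R : V → V → Prop} {Z : Finset V} {a : V} :
    a ∈ inn R Z ↔ ∀ y, R y a → y ∈ Z := by
  classical
  simp [inn]

/-- `|N[S]| - |S|`. -/
noncomputable def cc (R : V → V → Prop) (S : Finset V) : ℤ := ((nb R S).card : ℤ) - S.card

/-- `|Z| - |int Z|`. -/
noncomputable def cm (R : V → V → Prop) (Z : Finset V) : ℤ := (Z.card : ℤ) - (inn R Z).card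

theorem inn_compl (R : V → V → Prop) (S : Finset V) : inn R Sᶜ = (nb R S)ᶜ := by
  ext a
  rw [mem_inn, mem_compl, mem_nb]
  constructor
  · rintro h ⟨y, hy, hya⟩
    exact (mem_compl.1 (h y hya)) hy
  · intro h y hya
    exact mem_compl.2 fun hy => h ⟨y, hy, hya⟩

theorem cm_compl (R : V → V → Prop) (S : Finset V) : cm R Sᶜ = cc R S := by
  unfold cm cc
  rw [inn_compl, card_compl, card_compl]
  have h1 := card_le_univ S
  have h2 := card_le_univ (nb R S)
  omega

theorem cm_submod (R : V → V → Prop) (Z Z' : Finset V) :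
    cm R (Z ∪ Z') + cm R (Z ∩ Z') ≤ cm R Z + cm R Z' := by
  have h1 : inn R (Z ∩ Z') = inn R Z ∩ inn R Z' := by
    ext a
    simp only [mem_inn, mem_inter]
    exact ⟨fun h => ⟨fun y hy => (h y hy).1, fun y hy => (h y hy).2⟩,
      fun h y hy => ⟨h.1 y hy, h.2 y hy⟩⟩
  have h2 : inn R Z ∪ inn R Z' ⊆ inn R (Z ∪ Z') := by
    intro a ha
    rw [mem_inn]
    intro y hy
    rcases mem_union.1 ha with h | h
    · exact mem_union_left _ (mem_inn.1 h y hy)
    · exact mem_union_right _ (mem_inn.1 h y hy)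
  have h3 := card_union_add_card_inter Z Z'
  have h4 := card_union_add_card_inter (inn R Z) (inn R Z')
  have h5 := card_le_card h2
  unfold cm
  rw [h1]
  omega

/-- The minimum of `cm` over `H ⊆ Z ⊆ H ∪ K`. -/
noncomputable def mn (R : V → V → Prop) (H K : Finset V) : ℤ :=
  (Icc H (H ∪ K)).inf' (nonempty_Icc.2 subset_union_left) (cm R)

theorem mn_le (R : V → V → Prop) {H K Z : Finset V} (h1 : H ⊆ Z) (h2 : Z ⊆ H ∪ K) :
    mn R H K ≤ cm R Z :=
  inf'_le _ (mem_Icc.2 ⟨h1, h2⟩)

theorem mn_ex (R : V → V → Prop) (H K : Finset V) :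
    ∃ Z, H ⊆ Z ∧ Z ⊆ H ∪ K ∧ mn R H K = cm R Z := by
  obtain ⟨Z, hZ, h⟩ := exists_mem_eq_inf' (nonempty_Icc.2 (subset_union_left (s₁ := H) (s₂ := K)))
    (cm R)
  obtain ⟨h1, h2⟩ := mem_Icc.1 hZ
  exact ⟨Z, h1, h2, h⟩

theorem mn_empty (R : V → V → Prop) (H : Finset V) : mn R H ∅ = cm R H := by
  refine le_antisymm (mn_le R subset_rfl subset_union_left) ?_
  obtain ⟨Z, h1, h2, h3⟩ := mn_ex R H ∅
  rw [union_empty] at h2
  rw [h3, Subset.antisymm h2 h1]

/-- The first `t` vertices. -/
noncomputable def Pt (V : Type*) [Fintype V] (t : ℕ) : Finset V :=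
  univ.filter fun a => (Fintype.equivFin V a : ℕ) < t

theorem mem_Pt {t : ℕ} {a : V} : a ∈ Pt V t ↔ (Fintype.equivFin V a : ℕ) < t := by
  simp [Pt]

/-- The chain of minima. -/
noncomputable def ff (R : V → V → Prop) (H G : Finset V) (t : ℕ) : ℤ := mn R H (G ∩ Pt V t)

/-- The marginals. -/
noncomputable def eps (R : V → V → Prop) (H G : Finset V) (a : V) : ℤ :=
  ff R H G (Fintype.equivFin V a) - ff R H G ((Fintype.equivFin V a : ℕ) + 1)

theorem mn_anti (R : V → V → Prop) {H K K' : Finset V} (h : K ⊆ K') : mn R H K' ≤ mn R H K := by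
  obtain ⟨Z, h1, h2, h3⟩ := mn_ex R H K
  rw [h3]
  exact mn_le R h1 (h2.trans (union_subset_union_right h))

theorem Pt_mono {s t : ℕ} (h : s ≤ t) : Pt V s ⊆ Pt V t := by
  intro a ha
  rw [mem_Pt] at ha ⊢
  omega

theorem eps_nonneg (R : V → V → Prop) (H G : Finset V) (a : V) : 0 ≤ eps R H G a := by
  have := mn_anti R (H := H) (inter_subset_inter (subset_rfl (a := G))
    (Pt_mono (V := V) (Nat.le_succ (Fintype.equivFin V a : ℕ))))
  unfold eps ff
  have h2 : (Fintype.equivFin V a : ℕ).succ = (Fintype.equivFin V a : ℕ) + 1 := rfl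
  rw [h2] at this
  linarith

theorem eps_sum (R : V → V → Prop) (H G : Finset V) :
    ∑ a, eps R H G a = cm R H - mn R H G := by
  have h1 : ∑ a, eps R H G a = ∑ i : Fin (Fintype.card V),
      (fun t : ℕ => ff R H G t - ff R H G (t + 1)) i := by
    rw [← Equiv.sum_comp (Fintype.equivFin V)]
    rfl
  rw [h1, Fin.sum_univ_eq_sum_range (fun t : ℕ => ff R H G t - ff R H G (t + 1)),
    sum_range_sub']
  have h2 : ff R H G 0 = cm R H := by
    unfold ff
    have : G ∩ Pt V 0 = ∅ := by
      ext a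
      simp [mem_Pt]
    rw [this, mn_empty]
  have h3 : ff R H G (Fintype.card V) = mn R H G := by
    unfold ff
    have : G ∩ Pt V (Fintype.card V) = G := by
      ext a
      simp [mem_Pt]
    rw [this]
  rw [h2, h3]

theorem eps_eq_zero (R : V → V → Prop) {H G : Finset V} {a : V} (h : eps R H G a ≠ 0) :
    a ∈ G ∧ a ∉ H := by
  have key : ∀ K : Finset V, H ∪ (G ∩ Pt V ((Fintype.equivFin V a : ℕ) + 1)) =
      H ∪ (G ∩ Pt V (Fintype.equivFin V a : ℕ)) → False := by
    intro _ hK
    apply h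
    unfold eps ff mn
    simp only [hK]
    exact sub_self _
  constructor
  · by_contra ha
    apply key ∅
    congr 1
    ext b
    simp only [mem_inter, mem_Pt]
    constructor
    · rintro ⟨h1, h2⟩
      refine ⟨h1, ?_⟩
      have h3 : (Fintype.equivFin V b : ℕ) ≠ (Fintype.equivFin V a : ℕ) := by
        intro h4
        have : b = a := (Fintype.equivFin V).injective (Fin.ext h4)
        exact ha (this ▸ h1)
      omega
    · rintro ⟨h1, h2⟩
      exact ⟨h1, by omega⟩
  · intro ha
    apply key ∅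
    ext b
    simp only [mem_union, mem_inter, mem_Pt]
    constructor
    · rintro (h1 | ⟨h1, h2⟩)
      · exact Or.inl h1
      · by_cases h3 : (Fintype.equivFin V b : ℕ) = (Fintype.equivFin V a : ℕ)
        · have : b = a := (Fintype.equivFin V).injective (Fin.ext h3)
          exact Or.inl (this ▸ ha)
        · exact Or.inr ⟨h1, by omega⟩
    · rintro (h1 | ⟨h1, h2⟩)
      · exact Or.inl h1
      · exact Or.inr ⟨h1, by omega⟩

theorem eps_mono (R : V → V → Prop) {H G H' G' : Finset V} {a : V} (hH : H ⊆ H') (hG : G ⊆ G')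
    (ha : a ∉ H') : eps R H G a ≤ eps R H' G' a := by
  obtain ⟨Z, z1, z2, z3⟩ := mn_ex R H (G ∩ Pt V ((Fintype.equivFin V a : ℕ) + 1))
  obtain ⟨Y, y1, y2, y3⟩ := mn_ex R H' (G' ∩ Pt V (Fintype.equivFin V a : ℕ))
  have h1 := cm_submod R Z Y
  have haY : a ∉ Y := by
    intro h
    rcases mem_union.1 (y2 h) with h | h
    · exact ha h
    · have := mem_Pt.1 (mem_inter.1 h).2
      omega
  have h2 : mn R H' (G' ∩ Pt V ((Fintype.equivFin V a : ℕ) + 1)) ≤ cm R (Z ∪ Y) := by
    refine mn_le R (y1.trans subset_union_right) ?_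
    refine union_subset (z2.trans (union_subset_union hH (inter_subset_inter hG subset_rfl))) ?_
    exact y2.trans (union_subset_union_right (inter_subset_inter subset_rfl (Pt_mono (Nat.le_succ _))))
  have h3 : mn R H (G ∩ Pt V (Fintype.equivFin V a : ℕ)) ≤ cm R (Z ∩ Y) := by
    refine mn_le R (subset_inter z1 (hH.trans y1)) ?_
    intro b hb
    obtain ⟨hb1, hb2⟩ := mem_inter.1 hb
    rcases mem_union.1 (z2 hb1) with h | h
    · exact mem_union_left _ h
    · obtain ⟨h4, h5⟩ := mem_inter.1 h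
      refine mem_union_right _ (mem_inter.2 ⟨h4, ?_⟩)
      rw [mem_Pt] at h5 ⊢
      have h6 : (Fintype.equivFin V b : ℕ) ≠ (Fintype.equivFin V a : ℕ) := by
        intro h7
        have : b = a := (Fintype.equivFin V).injective (Fin.ext h7)
        exact haY (this ▸ hb2)
      omega
  unfold eps ff
  linarith

omit [DecidableEq V] in
/-- Layer cake comparison. -/
theorem layer (e g : V → ℤ) (he : ∀ x, 0 ≤ e x) (hg : ∀ x, 0 ≤ g x)
    (h : ∀ θ : ℤ, 0 ≤ θ →
      (univ.filter fun x => θ < e x).card ≤ (univ.filter fun x => θ < g x).card) :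
    ∑ x, e x ≤ ∑ x, g x := by
  obtain ⟨M, hM1, hM2⟩ : ∃ M : ℕ, (∀ x, e x ≤ M) ∧ ∀ x, g x ≤ M := by
    refine ⟨∑ x, ((e x).toNat + (g x).toNat), fun x => ?_, fun x => ?_⟩
    · have := single_le_sum (f := fun x => (e x).toNat + (g x).toNat)
        (fun i _ => Nat.zero_le _) (mem_univ x)
      have h2 : (e x).toNat + (g x).toNat ≤ ∑ x, ((e x).toNat + (g x).toNat) := this
      omega
    · have := single_le_sum (f := fun x => (e x).toNat + (g x).toNat)
        (fun i _ => Nat.zero_le _) (mem_univ x)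
      have h2 : (e x).toNat + (g x).toNat ≤ ∑ x, ((e x).toNat + (g x).toNat) := this
      omega
  have key : ∀ f : V → ℤ, (∀ x, 0 ≤ f x) → (∀ x, f x ≤ M) →
      ∑ x, f x = ∑ θ ∈ range M, ((univ.filter fun x => (θ : ℤ) < f x).card : ℤ) := by
    intro f hf hM
    have h1 : ∀ x, f x = ∑ θ ∈ range M, if (θ : ℤ) < f x then (1 : ℤ) else 0 := by
      intro x
      have h3 := hf x
      have h4 := hM x
      have h2 : (range M).filter (fun θ : ℕ => (θ : ℤ) < f x) = range (f x).toNat := by
        ext θ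
        simp only [mem_filter, mem_range]
        omega
      rw [sum_boole, h2, card_range]
      simp [h3]
    calc ∑ x, f x = ∑ x, ∑ θ ∈ range M, (if (θ : ℤ) < f x then (1 : ℤ) else 0) :=
          sum_congr rfl fun x _ => h1 x
      _ = ∑ θ ∈ range M, ∑ x, (if (θ : ℤ) < f x then (1 : ℤ) else 0) := sum_comm
      _ = _ := sum_congr rfl fun θ _ => by rw [sum_boole]
  rw [key e he hM1, key g hg hM2]
  refine sum_le_sum fun θ _ => ?_
  exact_mod_cast h θ (by positivity)

end Vale.Agent.P038.H49
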