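import Vale.Agent.P038.H49.Core

/-!
# An equilibrium of the outer problem gives an inner pair of no larger cost (P038)
-/

namespace Vale.Agent.P038.H49

open Finset

variable {V : Type*} [Fintype V] [DecidableEq V]

theorem dcount (S : V → Finset V) :
    ∑ a, ((S a).card : ℤ) = ∑ x, ((univ.filter fun a => x ∈ S a).card : ℤ) := by
  have h1 : ∀ a, ((S a).card : ℤ) = ∑ x, if x ∈ S a then (1 : ℤ) else 0 := by
    intro a
    rw [sum_boole, filter_univ_mem]
  rw [sum_congr rfl fun a _ => h1 a, sum_comm]
  exact sum_congr rfl fun x _ => by rw [sum_boole]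

/-- Outer feasible pairs of families. -/
structure Outer (R : V → V → Prop) (B C : V → Finset V) : Prop where
  hB : ∀ a b, R a b → b ∈ B a
  hC : ∀ a b, R a b → b ∈ C a
  dis : ∀ a b, b ∈ B a → a ∈ C b → a = b

/-- Outer feasible pairs in which enlarging one set does not help. -/
structure Equil (R : V → V → Prop) (B C : V → Finset V) : Prop extends Outer R B C where
  ro : ∀ a S, B a ⊆ S → (∀ x ∈ S, a ∈ C x → a = x) → cc R (B a) ≤ cc R S
  co : ∀ x S, C x ⊆ S → (∀ a ∈ S, x ∈ B a → a = x) → cc R (C x) ≤ cc R S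

open Classical in
/-- The intersection of the sets `B s` over the closed in-neighbours `s` of `a`. -/
noncomputable def XX (R : V → V → Prop) (B : V → Finset V) (a : V) : Finset V :=
  univ.filter fun x => ∀ s, R s a → x ∈ B s

theorem mem_XX {R : V → V → Prop} {B : V → Finset V} {a x : V} :
    x ∈ XX R B a ↔ ∀ s, R s a → x ∈ B s := by
  classical
  simp [XX]

theorem cost_le {R : V → V → Prop} (hR : ∀ a, R a a) {B C : V → Finset V} (h : Equil R B C) :
    ∑ a, cc R (XX R B a) + ∑ x, cc R (XX R C x) ≤ ∑ a, cc R (B a) + ∑ x, cc R (C x) := by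
  classical
  set G : V → Finset V := fun x => (C x)ᶜ with hGdef
  set Hs : V → Finset V := fun x => univ.filter fun a => x ∈ B a with hHsdef
  set H' : V → Finset V := fun x => (Hs x).erase x with hH'def
  set Rr : V → Finset V := fun x => univ.filter fun a => x ∈ nb R (B a) with hRrdef
  set R' : V → Finset V := fun x => (Rr x).erase x with hR'def
  set M : V → Finset V := fun x => (XX R C x)ᶜ with hMdef
  set K : V → Finset V := fun x => univ.filter fun a => x ∈ nb R (XX R B a) with hKdef
  have mG : ∀ {a x}, a ∈ G x ↔ a ∉ C x := fun {a x} => mem_compl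
  have mHs : ∀ {a x}, a ∈ Hs x ↔ x ∈ B a := fun {a x} => by simp [hHsdef]
  have mH' : ∀ {a x}, a ∈ H' x ↔ a ≠ x ∧ x ∈ B a := fun {a x} => by simp [hH'def, mHs]
  have mRr : ∀ {a x}, a ∈ Rr x ↔ ∃ y ∈ B a, R y x := fun {a x} => by simp [hRrdef, mem_nb]
  have mR' : ∀ {a x}, a ∈ R' x ↔ a ≠ x ∧ ∃ y ∈ B a, R y x := fun {a x} => by
    simp [hR'def, mRr]
  have mM : ∀ {a x}, a ∈ M x ↔ ∃ s, R s x ∧ a ∉ C s := fun {a x} => by
    simp [hMdef, mem_XX]
  have mK : ∀ {a x}, a ∈ K x ↔ ∃ y, (∀ s, R s a → y ∈ B s) ∧ R y x := fun {a x} => by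
    simp [hKdef, mem_nb, mem_XX]
  have F1 : ∀ x, H' x ⊆ G x := by
    intro x a ha
    obtain ⟨h1, h2⟩ := mH'.1 ha
    exact mG.2 fun h3 => h1 (h.dis a x h2 h3)
  have F2 : ∀ y x, R y x → H' y ⊆ R' x := by
    intro y x hyx a ha
    obtain ⟨h1, h2⟩ := mH'.1 ha
    refine mR'.2 ⟨?_, y, h2, hyx⟩
    rintro rfl
    exact h1 (h.dis a y h2 (h.hC y a hyx))
  have F3 : ∀ x, R' x ⊆ M x := by
    intro x a ha
    obtain ⟨h1, y, h2, h3⟩ := mR'.1 ha
    rw [mM]
    by_cases hay : a = y
    · subst hay
      exact ⟨x, hR x, fun h4 => h1 (h.dis a x (h.hB a x h3) h4)⟩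
    · exact ⟨y, h3, fun h4 => hay (h.dis a y h2 h4)⟩
  have F4 : ∀ y x, R y x → G y ⊆ M x := by
    intro y x hyx a ha
    exact mM.2 ⟨y, hyx, mG.1 ha⟩
  have F5 : ∀ x Z, H' x ⊆ Z → Z ⊆ G x → cm R (G x) ≤ cm R Z := by
    intro x Z h1 h2
    have h3 := h.co x Zᶜ (by
      intro a ha
      exact mem_compl.2 fun hz => mG.1 (h2 hz) ha) (by
      intro a ha hxa
      by_contra hne
      exact (mem_compl.1 ha) (h1 (mH'.2 ⟨hne, hxa⟩)))
    rw [← cm_compl, ← cm_compl, compl_compl] at h3
    exact h3
  have F6 : ∀ x Z, R' x ⊆ Z → Z ⊆ M x → cm R (M x) ≤ cm R Z := by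
    intro x Z h1 h2
    have key : ∀ T : Finset V, (∀ s ∈ T, R s x) → cm R (Z ∪ T.biUnion G) ≤ cm R Z := by
      intro T
      induction T using Finset.induction_on with
      | empty => intro _; simp
      | insert s T0 hs ih =>
        intro hT
        have ih' := ih fun s' hs' => hT s' (mem_insert_of_mem hs')
        have hsx := hT s (mem_insert_self _ _)
        set W := Z ∪ T0.biUnion G with hW
        have e1 : Z ∪ (insert s T0).biUnion G = W ∪ G s := by
          rw [biUnion_insert, hW]
          ext b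
          simp only [mem_union]
          tauto
        have h3 : H' s ⊆ W := ((F2 s x hsx).trans h1).trans subset_union_left
        have h4 := F5 s (W ∩ G s) (subset_inter h3 (F1 s)) inter_subset_right
        have h5 := cm_submod R W (G s)
        rw [e1]
        linarith
    have h3 := key (univ.filter fun s => R s x) (fun s hs => (mem_filter.1 hs).2)
    have e2 : Z ∪ (univ.filter fun s => R s x).biUnion G = M x := by
      refine Subset.antisymm (union_subset h2 ?_) ?_
      · intro b hb
        obtain ⟨s, hs, hbs⟩ := mem_biUnion.1 hb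
        exact F4 s x (mem_filter.1 hs).2 hbs
      · intro b hb
        obtain ⟨s, hs, hbs⟩ := mM.1 hb
        exact mem_union_right _ (mem_biUnion.2 ⟨s, mem_filter.2 ⟨mem_univ _, hs⟩, mG.2 hbs⟩)
    rw [e2] at h3
    exact h3
  -- the rows
  have row : ∀ a, ∑ x, eps R (H' x) (G x) a ≤ ∑ x, eps R (R' x) (M x) a := by
    intro a
    have hstep : ∑ x, eps R (H' x) (G x) a ≤
        ∑ x, (if x ∈ nb R (B a) then 0 else eps R (R' x) (M x) a) := by
      refine layer _ _ (fun x => eps_nonneg R _ _ a) (fun x => ?_) (fun θ hθ => ?_)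
      · by_cases hx : x ∈ nb R (B a)
        · simp [hx]
        · simp only [hx, if_false]
          exact eps_nonneg R _ _ a
      · set L := univ.filter fun x => θ < eps R (H' x) (G x) a with hL
        have hLm : ∀ x ∈ L, a ∉ C x ∧ x ∉ B a := by
          intro x hx
          have h1 : θ < eps R (H' x) (G x) a := (mem_filter.1 hx).2
          have h2 := eps_eq_zero R (H := H' x) (G := G x) (a := a) (by omega)
          have h3 : a ∉ C x := mG.1 h2.1
          refine ⟨h3, fun h4 => h2.2 (mH'.2 ⟨?_, h4⟩)⟩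
          rintro rfl
          exact h3 (h.hC a a (hR a))
        have hdis : Disjoint (B a) L := by
          rw [disjoint_left]
          intro x hx hx'
          exact (hLm x hx').2 hx
        have h1 := h.ro a (B a ∪ L) subset_union_left (by
          intro x hx hax
          rcases mem_union.1 hx with hx | hx
          · exact h.dis a x hx hax
          · exact absurd hax (hLm x hx).1)
        have h2 : nb R (B a ∪ L) = nb R (B a) ∪ (nb R L \ nb R (B a)) := by
          ext z
          simp only [mem_nb, mem_union, mem_sdiff]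
          constructor
          · rintro ⟨y, hy | hy, hyz⟩
            · exact Or.inl ⟨y, hy, hyz⟩
            · by_cases h5 : ∃ y ∈ B a, R y z
              · exact Or.inl h5
              · exact Or.inr ⟨⟨y, hy, hyz⟩, h5⟩
          · rintro (⟨y, hy, hyz⟩ | ⟨⟨y, hy, hyz⟩, -⟩)
            · exact ⟨y, Or.inl hy, hyz⟩
            · exact ⟨y, Or.inr hy, hyz⟩
        have h3 : L.card ≤ (nb R L \ nb R (B a)).card := by
          unfold cc at h1
          rw [h2, card_union_of_disjoint disjoint_sdiff, card_union_of_disjoint hdis] at h1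
          push_cast at h1
          omega
        refine h3.trans (card_le_card ?_)
        intro z hz
        obtain ⟨hz1, hz2⟩ := mem_sdiff.1 hz
        obtain ⟨y, hy, hyz⟩ := mem_nb.1 hz1
        refine mem_filter.2 ⟨mem_univ _, ?_⟩
        simp only [hz2, if_false]
        have h4 : θ < eps R (H' y) (G y) a := (mem_filter.1 hy).2
        refine lt_of_lt_of_le h4 (eps_mono R (F2 y z hyz) (F4 y z hyz) ?_)
        intro h5
        exact hz2 (mem_nb.2 (mR'.1 h5).2)
    refine hstep.trans (sum_le_sum fun x _ => ?_)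
    by_cases hx : x ∈ nb R (B a)
    · simp only [hx, if_true]
      exact eps_nonneg R _ _ a
    · simp only [hx, if_false]
      exact le_refl _
  have T : ∑ x, (cm R (H' x) - cm R (G x)) ≤ ∑ x, (cm R (R' x) - cm R (M x)) := by
    calc ∑ x, (cm R (H' x) - cm R (G x)) ≤ ∑ x, (cm R (H' x) - mn R (H' x) (G x)) := by
          refine sum_le_sum fun x _ => ?_
          have := mn_le R (F1 x) (subset_union_right (s₁ := H' x) (s₂ := G x))
          linarith
      _ = ∑ x, ∑ a, eps R (H' x) (G x) a := sum_congr rfl fun x _ => (eps_sum R _ _).symm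
      _ = ∑ a, ∑ x, eps R (H' x) (G x) a := sum_comm
      _ ≤ ∑ a, ∑ x, eps R (R' x) (M x) a := sum_le_sum fun a _ => row a
      _ = ∑ x, ∑ a, eps R (R' x) (M x) a := sum_comm
      _ = ∑ x, (cm R (R' x) - mn R (R' x) (M x)) := sum_congr rfl fun x _ => eps_sum R _ _
      _ ≤ ∑ x, (cm R (R' x) - cm R (M x)) := by
          refine sum_le_sum fun x _ => ?_
          obtain ⟨Z, z1, z2, z3⟩ := mn_ex R (R' x) (M x)
          rw [union_eq_right.2 (F3 x)] at z2
          have := F6 x Z z1 z2
          linarith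
  -- the diagonal
  have D1 : ∀ x, ((Hs x).card : ℤ) - (inn R (Hs x)).card = cm R (H' x) := by
    intro x
    have hx : x ∈ Hs x := mHs.2 (h.hB x x (hR x))
    have h1 : (H' x).card + 1 = (Hs x).card := card_erase_add_one hx
    have h2 : x ∉ inn R (H' x) := fun h3 => (mH'.1 (mem_inn.1 h3 x (hR x))).1 rfl
    have h3 : inn R (Hs x) = insert x (inn R (H' x)) := by
      ext a
      rw [mem_insert, mem_inn, mem_inn]
      constructor
      · intro h4
        by_cases hax : a = x
        · exact Or.inl hax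
        · refine Or.inr fun y hya => mH'.2 ⟨?_, mHs.1 (h4 y hya)⟩
          rintro rfl
          exact hax (h.dis a y (mHs.1 (h4 a (hR a))) (h.hC y a hya))
      · rintro (rfl | h4)
        · intro y hya
          exact mHs.2 (h.hB y a hya)
        · intro y hya
          exact mHs.2 (mH'.1 (h4 y hya)).2
    have h4 : (inn R (Hs x)).card = (inn R (H' x)).card + 1 := by
      rw [h3, card_insert_of_notMem h2]
    unfold cm
    omega
  have D2 : ∀ x, cm R (R' x) ≤ ((Rr x).card : ℤ) - (K x).card := by
    intro x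
    have hx : x ∈ Rr x := mRr.2 ⟨x, h.hB x x (hR x), hR x⟩
    have h1 : (R' x).card + 1 = (Rr x).card := card_erase_add_one hx
    have h3 : K x ⊆ insert x (inn R (R' x)) := by
      intro a ha
      obtain ⟨y, h4, hyx⟩ := mK.1 ha
      rw [mem_insert, mem_inn]
      by_cases hax : a = x
      · exact Or.inl hax
      · refine Or.inr fun s hsa => mR'.2 ⟨?_, y, h4 s hsa, hyx⟩
        rintro rfl
        have h5 : s = y := h.dis s y (h4 s hsa) (h.hC y s hyx)
        subst h5
        exact hax (h.dis a s (h4 a (hR a)) (h.hC s a hsa))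
    have h4 : (K x).card ≤ (inn R (R' x)).card + 1 :=
      (card_le_card h3).trans (card_insert_le _ _)
    unfold cm
    omega
  -- the columns
  have E1 : ∑ a, cc R (B a) = ∑ x, (((Rr x).card : ℤ) - (Hs x).card) := by
    have h1 := dcount fun a => nb R (B a)
    have h2 := dcount fun a => B a
    unfold cc
    rw [sum_sub_distrib, sum_sub_distrib, h1, h2]
  have E2 : ∑ a, cc R (XX R B a) = ∑ x, (((K x).card : ℤ) - (inn R (Hs x)).card) := by
    have h1 := dcount fun a => nb R (XX R B a)
    have h2 := dcount fun a => XX R B a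
    have h3 : ∀ x, (univ.filter fun a => x ∈ XX R B a) = inn R (Hs x) := by
      intro x
      ext a
      rw [mem_inn, mem_filter, mem_XX]
      exact ⟨fun h4 y hy => mHs.2 (h4.2 y hy), fun h4 => ⟨mem_univ _, fun y hy => mHs.1 (h4 y hy)⟩⟩
    simp only [h3] at h2
    unfold cc
    rw [sum_sub_distrib, sum_sub_distrib, h1, h2]
  have E3 : ∀ x, cc R (C x) = cm R (G x) := fun x => (cm_compl R (C x)).symm
  have E4 : ∀ x, cc R (XX R C x) = cm R (M x) := fun x => (cm_compl R (XX R C x)).symm
  rw [E1, E2, sum_congr rfl fun x _ => E3 x, sum_congr rfl fun x _ => E4 x]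
  have h9 : ∑ x, ((((K x).card : ℤ) - (inn R (Hs x)).card) + cm R (M x)) ≤
      ∑ x, (((((Rr x).card : ℤ) - (Hs x).card) + cm R (G x)) +
        ((cm R (H' x) - cm R (G x)) - (cm R (R' x) - cm R (M x)))) := by
    refine sum_le_sum fun x _ => ?_
    have h1 := D1 x
    have h2 := D2 x
    linarith
  simp only [sum_add_distrib, sum_sub_distrib] at h9 T ⊢
  linarith

end Vale.Agent.P038.H49
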